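import Vale.Agent.P270.R2.H73.Stmt
import Vale.Agent.P272.XT.X4
import Vale.Agent.P272.BR.B4

/-!
# P270 / P285, R1, module M3: the Ricci error of the regularised metrics is small at maximisers
-/

open scoped Manifold ContDiff ComplexOrder Topology ENNReal
open MeasureTheory Metric Set Filter Complex

noncomputable section

namespace Vale.Agent.P270.R2.H824

open Vale.Agent.P272.K Vale.Agent.P272.HY Vale.Agent.P272.XT
open Vale.Agent.P272 (BR.spd BR.spd_nonneg BR.at_chartAt)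
open Vale.Agent.P272

section
variable {n : ℕ} {X : Type} [TopologicalSpace X] [ChartedSpace (Cm n) X]
  {f : ℂ → X} {w g : Chart n X → Cm n → Matrix (Fin n) (Fin n) ℂ} {S : X → ℝ}

/-- a smooth function is continuous -/
lemma smooth_continuous (hS : SmoothFn (n := n) S) : Continuous S := by
  rw [continuous_iff_continuousAt]
  intro x
  have he : At (chartAt (Cm n) x : Chart n X) x := BR.at_chartAt (n := n) x
  have h1 : ContinuousAt (fun z => S ((chartAt (Cm n) x).symm z)) (chartAt (Cm n) x x) :=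
    (hS _ x he).continuousAt
  have h2 : ContinuousAt (fun y => S ((chartAt (Cm n) x).symm (chartAt (Cm n) x y))) x :=
    ContinuousAt.comp (g := fun z => S ((chartAt (Cm n) x).symm z)) h1
      ((chartAt (Cm n) x).continuousAt he.2)
  refine h2.congr ?_
  filter_upwards [(chartAt (Cm n) x).open_source.mem_nhds he.2] with y hy
  rw [(chartAt (Cm n) x).left_inv hy]

/-- the speed of a conformal metric -/
lemma spd_wt' (ρ : X → ℝ) (w : Chart n X → Cm n → Matrix (Fin n) (Fin n) ℂ) (f : ℂ → X) (z : ℂ) :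
    BR.spd (H73.wt ρ w) f z = ρ (f z) * BR.spd w f z := by
  have he : At (chartAt (Cm n) (f z) : Chart n X) (f z) := BR.at_chartAt (n := n) (f z)
  unfold BR.spd H73.wt
  rw [he.left_inv]
  have : quad (((ρ (f z) : ℝ) : ℂ) • w (chartAt (Cm n) (f z)) (chartAt (Cm n) (f z) (f z)))
      (vel f (chartAt (Cm n) (f z)) z) = ((ρ (f z) : ℝ) : ℂ) *
      quad (w (chartAt (Cm n) (f z)) (chartAt (Cm n) (f z) (f z)))
      (vel f (chartAt (Cm n) (f z)) z) := by
    unfold quad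
    simp only [Matrix.smul_apply, smul_eq_mul, Finset.mul_sum]
    refine Finset.sum_congr rfl fun i _ => Finset.sum_congr rfl fun j _ => ?_
    ring
  rw [this, Complex.re_ofReal_mul]

/-- comparison of the speeds -/
lemma spd_le_of_psd {B : ℝ}
    (h : ∀ e x, At e x → ((B : ℂ) • g e (e x) - w e (e x)).PosSemidef) (f : ℂ → X) (z : ℂ) :
    BR.spd w f z ≤ B * BR.spd g f z := by
  have he : At (chartAt (Cm n) (f z) : Chart n X) (f z) := BR.at_chartAt (n := n) (f z)
  have h1 := quad_nonneg (h _ _ he) (vel f (chartAt (Cm n) (f z)) z)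
  unfold BR.spd
  have : quad ((B : ℂ) • g (chartAt (Cm n) (f z)) (chartAt (Cm n) (f z) (f z)) -
      w (chartAt (Cm n) (f z)) (chartAt (Cm n) (f z) (f z)))
      (vel f (chartAt (Cm n) (f z)) z) = (B : ℂ) *
      quad (g (chartAt (Cm n) (f z)) (chartAt (Cm n) (f z) (f z)))
      (vel f (chartAt (Cm n) (f z)) z) -
      quad (w (chartAt (Cm n) (f z)) (chartAt (Cm n) (f z) (f z)))
      (vel f (chartAt (Cm n) (f z)) z) := by
    unfold quad
    simp only [Matrix.smul_apply, Matrix.sub_apply, smul_eq_mul, Finset.mul_sum,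
      ← Finset.sum_sub_distrib]
    refine Finset.sum_congr rfl fun i _ => Finset.sum_congr rfl fun j _ => ?_
    ring
  rw [this, Complex.sub_re, Complex.re_ofReal_mul] at h1
  linarith

variable [IsManifold 𝓘(ℂ, Cm n) ω X]

/-- **normal families**: `τ/(S(f)+τ)` is small in the mean on `|z| < r` if `S (f 0) ≥ s₁` -/
theorem nf [T2Space X] [CompactSpace X] (hw : IsHermitian w) {M : ℝ}
    (hM : ∀ f : ℂ → X, HolD n f → BR.spd w f 0 ≤ M)
    (hS : Continuous S) (hS0 : ∀ x, 0 ≤ S x) (hN : H73.NullZ n S) {r s₁ ε : ℝ} (hr1 : r < 1)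
    (hs₁ : 0 < s₁) (hε : 0 < ε) :
    ∃ τ₀ : ℝ, 0 < τ₀ ∧ τ₀ ≤ 1 ∧ ∀ τ : ℝ, 0 < τ → τ ≤ τ₀ → ∀ f : ℂ → X, HolD n f →
      s₁ ≤ S (f 0) →
      ∫⁻ z in ball (0 : ℂ) r, ENNReal.ofReal (τ / (S (f z) + τ)) ≤ ENNReal.ofReal ε := by
  by_contra hcon
  push Not at hcon
  have hk : ∀ k : ℕ, ∃ τ : ℝ, ∃ f : ℂ → X, 0 < τ ∧ τ ≤ 1 / ((k : ℝ) + 1) ∧ HolD n f ∧
      s₁ ≤ S (f 0) ∧
      ENNReal.ofReal ε < ∫⁻ z in ball (0 : ℂ) r, ENNReal.ofReal (τ / (S (f z) + τ)) := by
    intro k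
    have h1 : (0 : ℝ) < 1 / ((k : ℝ) + 1) := by positivity
    have h2 : 1 / ((k : ℝ) + 1) ≤ 1 := by
      rw [div_le_one (by positivity)]
      have : (0 : ℝ) ≤ (k : ℝ) := by positivity
      linarith
    obtain ⟨τ, h3, h4, f, h5, h6, h7⟩ := hcon _ h1 h2
    exact ⟨τ, f, h3, h4, h5, h6, h7⟩
  choose τ f hτ0 hτ1 hf hf0 hbig using hk
  have : Nonempty X := ⟨f 0 0⟩
  have hDB : BR.DiscBound w M := BR.discBound_of_zero hM
  obtain ⟨φ, hφ, g, hg, hconv⟩ := BR.normal hw isOpen_ball f (U := ball (0:ℂ) 1) (by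
    intro z hz
    have hz1 : ‖z‖ < 1 := by simpa using hz
    refine ⟨(1 - ‖z‖) / 2, by linarith, M / (1 - (1 + ‖z‖) / 2) ^ 2, Eventually.of_forall ?_⟩
    intro j y hy
    have hy1 : ‖y‖ ≤ (1 + ‖z‖) / 2 := by
      have h1 : ‖y - z‖ < (1 - ‖z‖) / 2 := by simpa [dist_eq_norm] using hy
      have h2 : ‖y‖ ≤ ‖y - z‖ + ‖z‖ := by simpa using norm_add_le (y - z) z
      linarith
    refine ⟨hf j y (by simp only [mem_ball_zero_iff]; linarith), ?_⟩
    exact hDB.le_of_mem (hf j) (by linarith) hy1)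
  have hφt : Tendsto φ atTop atTop := hφ.tendsto_atTop
  have h0 : (0:ℂ) ∈ ball (0:ℂ) 1 := by simp
  have hlimS : ∀ z ∈ ball (0:ℂ) 1, Tendsto (fun k => S (f (φ k) z)) atTop (𝓝 (S (g z))) :=
    fun z hz => (hS.tendsto _).comp (hconv.tendsto hg hz)
  have hg0 : 0 < S (g 0) := by
    refine lt_of_lt_of_le hs₁ (ge_of_tendsto (hlimS 0 h0) (Eventually.of_forall fun k => hf0 _))
  have hnull := hN g hg hg0
  have hτt : Tendsto (fun k => τ (φ k)) atTop (𝓝 0) := by
    refine squeeze_zero (fun k => (hτ0 _).le) (fun k => hτ1 _) ?_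
    exact (tendsto_one_div_add_atTop_nhds_zero_nat (𝕜 := ℝ)).comp hφt
  have hsub : ball (0:ℂ) r ⊆ ball (0:ℂ) 1 := ball_subset_ball hr1.le
  have hlim : Tendsto (fun k => ∫⁻ z in ball (0 : ℂ) r,
      ENNReal.ofReal (τ (φ k) / (S (f (φ k) z) + τ (φ k)))) atTop
      (𝓝 (∫⁻ _z in ball (0 : ℂ) r, (0 : ℝ≥0∞))) := by
    refine tendsto_lintegral_of_dominated_convergence' (fun _ => 1) ?_ ?_ ?_ ?_
    · intro k
      refine (ContinuousOn.aemeasurable (f := fun z => τ (φ k) / (S (f (φ k) z) + τ (φ k))) ?_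
        measurableSet_ball).ennreal_ofReal
      have hc : ContinuousOn (fun z => S (f (φ k) z)) (ball (0:ℂ) r) :=
        hS.comp_continuousOn ((BR.HolOn.continuousOn (hf (φ k))).mono hsub)
      refine continuousOn_const.div (hc.add continuousOn_const) fun z _ => ?_
      have := hτ0 (φ k)
      have := hS0 (f (φ k) z)
      positivity
    · intro k
      refine Eventually.of_forall fun z => ?_
      have h1 := hτ0 (φ k)
      have h2 := hS0 (f (φ k) z)
      show ENNReal.ofReal (τ (φ k) / (S (f (φ k) z) + τ (φ k))) ≤ 1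
      rw [← ENNReal.ofReal_one]
      refine ENNReal.ofReal_le_ofReal ?_
      rw [div_le_one (by linarith)]
      linarith
    · rw [lintegral_const, one_mul, Measure.restrict_apply_univ]
      exact measure_ball_lt_top.ne
    · have h1 : ∀ᵐ z ∂(volume.restrict (ball (0:ℂ) r)), ¬ (z ∈ ball (0:ℂ) 1 ∧ S (g z) = 0) := by
        refine ae_restrict_of_ae ?_
        rw [ae_iff]
        simpa using hnull
      filter_upwards [h1, ae_restrict_mem measurableSet_ball] with z hz hzr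
      have hz1 := hsub hzr
      have hz2 : S (g z) ≠ 0 := fun h => hz ⟨hz1, h⟩
      have h2 : Tendsto (fun k => τ (φ k) / (S (f (φ k) z) + τ (φ k))) atTop
          (𝓝 (0 / (S (g z) + 0))) :=
        hτt.div ((hlimS z hz1).add hτt) (by simpa using hz2)
      rw [zero_div] at h2
      have h3 := (ENNReal.continuous_ofReal.tendsto _).comp h2
      rw [ENNReal.ofReal_zero] at h3
      exact h3
  rw [lintegral_zero] at hlim
  have hle : ENNReal.ofReal ε ≤ 0 :=
    ge_of_tendsto hlim (Eventually.of_forall fun k => (hbig (φ k)).le)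
  have : 0 < ENNReal.ofReal ε := ENNReal.ofReal_pos.2 hε
  exact absurd hle (not_le.2 this)

/-- the boundary part -/
theorem outer {w₁ : Chart n X → Cm n → Matrix (Fin n) (Fin n) ℂ} (hg : IsHermitian g)
    {lam N r : ℝ} (hlam : 1 ≤ lam) (hf : IsMaxX w₁ g lam f) (hN : BR.spd w₁ f 0 ≤ N)
    (hr0 : 0 < r) (hr1 : r < 1) :
    ∫⁻ z in ball (0 : ℂ) 1 \ ball (0 : ℂ) r,
      ENNReal.ofReal ((1 - ‖z‖ ^ 2) / Real.pi * BR.spd g f z) ≤
      ENNReal.ofReal ((1 - r ^ 2) * N) := by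
  have hA : MeasurableSet (ball (0 : ℂ) 1 \ ball (0 : ℂ) r) :=
    measurableSet_ball.diff measurableSet_ball
  have hr2 : 0 ≤ 1 - r ^ 2 := by nlinarith
  have hder : ∀ z : ℂ, HasDerivAt (fun ζ : ℂ => (r : ℂ) * ζ) (r : ℂ) z := fun z => by
    have := (hasDerivAt_id' z).const_mul (r : ℂ)
    rwa [mul_one] at this
  have hnorm : ∀ z : ℂ, ‖(r : ℂ) * z‖ = r * ‖z‖ := fun z => by
    rw [norm_mul, Complex.norm_of_nonneg hr0.le]
  have h1 := hf.comp_le (φ := fun z => (r : ℂ) * z) (by linarith) hg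
    (fun z _ => (hder z).differentiableAt.differentiableWithinAt)
    (fun a _ b _ hab => by
      have : (r : ℂ) ≠ 0 := by exact_mod_cast hr0.ne'
      exact mul_left_cancel₀ this hab)
    (fun z _ => by
      rw [hnorm]
      nlinarith [norm_nonneg z])
    hA sdiff_subset (fun z hz h => by
      refine h.2 ?_
      rw [mem_ball_zero_iff] at hz ⊢
      rw [hnorm]
      nlinarith)
  rw [(hder 0).deriv, Complex.norm_of_nonneg hr0.le] at h1
  have hint := (TW_integrable hg hf.holo hf.fin).mono_set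
    (sdiff_subset : ball (0 : ℂ) 1 \ ball (0 : ℂ) r ⊆ _)
  have hnn : 0 ≤ᵐ[volume.restrict (ball (0 : ℂ) 1 \ ball (0 : ℂ) r)]
      fun z => (1 - ‖z‖ ^ 2) / Real.pi * BR.spd g f z := by
    filter_upwards [ae_restrict_mem hA] with z hz
    exact mul_nonneg (wt_nonneg hz.1) (BR.spd_nonneg hg f z)
  rw [← ofReal_integral_eq_lintegral_ofReal hint hnn]
  refine ENNReal.ofReal_le_ofReal ?_
  have h2 : 0 ≤ ∫ z in ball (0 : ℂ) 1 \ ball (0 : ℂ) r,
      (1 - ‖z‖ ^ 2) / Real.pi * BR.spd g f z := integral_nonneg_of_ae hnn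
  have h3 : (1 - r ^ 2) * BR.spd w₁ f 0 ≤ (1 - r ^ 2) * N :=
    mul_le_mul_of_nonneg_left hN hr2
  nlinarith

end

/-- **M3** -/
theorem ectl (n : ℕ) (X : Type) [TopologicalSpace X] [T2Space X] [CompactSpace X]
    [ChartedSpace (Cm n) X] [IsManifold 𝓘(ℂ, Cm n) ω X] : H73.ECtl n X := by
  intro w hw M hM0 hM S hS hS0 hS1 hN B κ δ η ε hB hκ hδ hη hε
  have hSc := smooth_continuous hS
  set s₁ : ℝ := (η / M) ^ (1 / δ) with hs₁
  have hs₁0 : 0 < s₁ := Real.rpow_pos_of_pos (by positivity) _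
  have hKBM : 0 < κ * B * M := by positivity
  set t : ℝ := min (1 / 2) (ε / (4 * (κ * B * M))) with ht
  have ht0 : 0 < t := lt_min (by norm_num) (by positivity)
  have ht1 : t ≤ 1 / 2 := min_le_left _ _
  have ht2 : t * (4 * (κ * B * M)) ≤ ε := by
    rw [← le_div_iff₀ (by positivity)]
    exact min_le_right _ _
  set r : ℝ := 1 - t with hr
  have hr0 : 0 < r := by rw [hr]; linarith
  have hr1 : r < 1 := by rw [hr]; linarith
  set C : ℝ := κ * (M / (1 - r) ^ 2) / Real.pi with hC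
  have hC0 : 0 ≤ C := by
    have := Real.pi_pos
    positivity
  obtain ⟨τ', hτ'0, hτ'1, hnf⟩ := nf (r := r) (s₁ := s₁) (ε := ε / (2 * (C + 1))) hw hM hSc hS0 hN
    hr1 hs₁0 (by positivity)
  refine ⟨min τ' s₁, lt_min hτ'0 hs₁0, (min_le_left _ _).trans hτ'1, ?_⟩
  intro τ hτ0 hτ g hg hwg lam hlam f hf hη'
  have hτ1 : τ ≤ τ' := hτ.trans (min_le_left _ _)
  have hτ2 : τ ≤ s₁ := hτ.trans (min_le_right _ _)
  have : Nonempty X := ⟨f 0⟩
  have hDB : BR.DiscBound w M := BR.discBound_of_zero hM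
  have hq0 : 0 ≤ BR.spd w f 0 := BR.spd_nonneg hw f 0
  have hq1 : BR.spd w f 0 ≤ M := hM f hf.holo
  set b : ℝ := (S (f 0) + τ) / 2 with hb
  have hb0 : 0 ≤ b := by
    have := hS0 (f 0)
    rw [hb]; linarith
  have hb1 : b ≤ 1 := by
    have := hS1 (f 0)
    rw [hb]; linarith
  rw [spd_wt'] at hη'
  have hρ0 : 0 ≤ b ^ δ := Real.rpow_nonneg hb0 _
  have hρ1 : b ^ δ ≤ 1 := Real.rpow_le_one hb0 hb1 hδ.le
  have hη2 : η / M ≤ b ^ δ := by
    rw [div_le_iff₀ hM0]
    refine le_trans hη' ?_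
    exact mul_le_mul_of_nonneg_left hq1 hρ0
  have hbs : s₁ ≤ b := by
    have h1 := Real.rpow_le_rpow (by positivity) hη2 (show 0 ≤ 1 / δ by positivity)
    rwa [← Real.rpow_mul hb0, mul_one_div_cancel hδ.ne', Real.rpow_one] at h1
  have hSf : s₁ ≤ S (f 0) := by
    have : S (f 0) = 2 * b - τ := by rw [hb]; ring
    rw [this]; linarith
  have hspd1 : BR.spd (H73.wt (fun x => ((S x + τ) / 2) ^ δ) w) f 0 ≤ M := by
    rw [spd_wt']
    calc ((S (f 0) + τ) / 2) ^ δ * BR.spd w f 0 ≤ 1 * M :=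
          mul_le_mul hρ1 hq1 hq0 zero_le_one
      _ = M := one_mul M
  have hin := hnf τ hτ0 hτ1 f hf.holo hSf
  have hout := outer hg hlam hf hspd1 hr0 hr1
  have hθ0 : ∀ x, 0 ≤ τ / (S x + τ) := fun x => by
    have := hS0 x
    positivity
  have hθ1 : ∀ x, τ / (S x + τ) ≤ 1 := fun x => by
    have := hS0 x
    rw [div_le_one (by linarith)]
    linarith
  unfold TW
  have hinter : ball (0 : ℂ) 1 ∩ ball (0 : ℂ) r = ball (0 : ℂ) r :=
    inter_eq_right.2 (ball_subset_ball hr1.le)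
  rw [← lintegral_inter_add_sdiff (μ := volume) _ (ball (0 : ℂ) 1)
    (measurableSet_ball (x := (0 : ℂ)) (ε := r)), hinter]
  have hI : ∫⁻ z in ball (0 : ℂ) r, ENNReal.ofReal ((1 - ‖z‖ ^ 2) / Real.pi *
      BR.spd (H73.wt (fun x => κ * (τ / (S x + τ))) w) f z) ≤ ENNReal.ofReal (ε / 2) := by
    calc ∫⁻ z in ball (0 : ℂ) r, ENNReal.ofReal ((1 - ‖z‖ ^ 2) / Real.pi *
          BR.spd (H73.wt (fun x => κ * (τ / (S x + τ))) w) f z)
        ≤ ∫⁻ z in ball (0 : ℂ) r, ENNReal.ofReal C * ENNReal.ofReal (τ / (S (f z) + τ)) := by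
          refine setLIntegral_mono' measurableSet_ball fun z hz => ?_
          rw [← ENNReal.ofReal_mul hC0]
          refine ENNReal.ofReal_le_ofReal ?_
          rw [spd_wt']
          have hz1 : ‖z‖ < r := by simpa using hz
          have h1 : BR.spd w f z ≤ M / (1 - r) ^ 2 := hDB.le_of_mem hf.holo hr1 hz1.le
          have h2 : 0 ≤ BR.spd w f z := BR.spd_nonneg hw f z
          have h3 : (1 - ‖z‖ ^ 2) / Real.pi ≤ 1 / Real.pi := wt_le
          have h4 : 0 ≤ κ * (τ / (S (f z) + τ)) * BR.spd w f z :=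
            mul_nonneg (mul_nonneg hκ.le (hθ0 _)) h2
          calc (1 - ‖z‖ ^ 2) / Real.pi * (κ * (τ / (S (f z) + τ)) * BR.spd w f z)
              ≤ 1 / Real.pi * (κ * (τ / (S (f z) + τ)) * BR.spd w f z) :=
                mul_le_mul_of_nonneg_right h3 h4
            _ ≤ 1 / Real.pi * (κ * (τ / (S (f z) + τ)) * (M / (1 - r) ^ 2)) := by
                refine mul_le_mul_of_nonneg_left ?_ (by positivity)
                exact mul_le_mul_of_nonneg_left h1 (mul_nonneg hκ.le (hθ0 _))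
            _ = C * (τ / (S (f z) + τ)) := by
                rw [hC]; ring
      _ = ENNReal.ofReal C * ∫⁻ z in ball (0 : ℂ) r, ENNReal.ofReal (τ / (S (f z) + τ)) :=
          lintegral_const_mul' _ _ ENNReal.ofReal_ne_top
      _ ≤ ENNReal.ofReal C * ENNReal.ofReal (ε / (2 * (C + 1))) := by gcongr
      _ = ENNReal.ofReal (C * (ε / (2 * (C + 1)))) := (ENNReal.ofReal_mul hC0).symm
      _ ≤ ENNReal.ofReal (ε / 2) := by
          refine ENNReal.ofReal_le_ofReal ?_
          rw [mul_div_assoc', div_le_div_iff₀ (by positivity) (by norm_num)]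
          nlinarith
  have hO : ∫⁻ z in ball (0 : ℂ) 1 \ ball (0 : ℂ) r, ENNReal.ofReal ((1 - ‖z‖ ^ 2) / Real.pi *
      BR.spd (H73.wt (fun x => κ * (τ / (S x + τ))) w) f z) ≤ ENNReal.ofReal (ε / 2) := by
    calc ∫⁻ z in ball (0 : ℂ) 1 \ ball (0 : ℂ) r, ENNReal.ofReal ((1 - ‖z‖ ^ 2) / Real.pi *
          BR.spd (H73.wt (fun x => κ * (τ / (S x + τ))) w) f z)
        ≤ ∫⁻ z in ball (0 : ℂ) 1 \ ball (0 : ℂ) r, ENNReal.ofReal (κ * B) *
          ENNReal.ofReal ((1 - ‖z‖ ^ 2) / Real.pi * BR.spd g f z) := by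
          refine setLIntegral_mono' (measurableSet_ball.diff measurableSet_ball) fun z hz => ?_
          rw [← ENNReal.ofReal_mul (by positivity)]
          refine ENNReal.ofReal_le_ofReal ?_
          rw [spd_wt']
          have h1 : BR.spd w f z ≤ B * BR.spd g f z := spd_le_of_psd hwg f z
          have h2 : 0 ≤ BR.spd w f z := BR.spd_nonneg hw f z
          have h3 : 0 ≤ (1 - ‖z‖ ^ 2) / Real.pi := wt_nonneg hz.1
          have h4 : κ * (τ / (S (f z) + τ)) * BR.spd w f z ≤ κ * (B * BR.spd g f z) := by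
            have h5 : κ * (τ / (S (f z) + τ)) ≤ κ * 1 := mul_le_mul_of_nonneg_left (hθ1 _) hκ.le
            rw [mul_one] at h5
            exact mul_le_mul h5 h1 h2 hκ.le
          calc (1 - ‖z‖ ^ 2) / Real.pi * (κ * (τ / (S (f z) + τ)) * BR.spd w f z)
              ≤ (1 - ‖z‖ ^ 2) / Real.pi * (κ * (B * BR.spd g f z)) :=
                mul_le_mul_of_nonneg_left h4 h3
            _ = κ * B * ((1 - ‖z‖ ^ 2) / Real.pi * BR.spd g f z) := by ring
      _ = ENNReal.ofReal (κ * B) * ∫⁻ z in ball (0 : ℂ) 1 \ ball (0 : ℂ) r,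
          ENNReal.ofReal ((1 - ‖z‖ ^ 2) / Real.pi * BR.spd g f z) :=
          lintegral_const_mul' _ _ ENNReal.ofReal_ne_top
      _ ≤ ENNReal.ofReal (κ * B) * ENNReal.ofReal ((1 - r ^ 2) * M) := by gcongr
      _ = ENNReal.ofReal (κ * B * ((1 - r ^ 2) * M)) := (ENNReal.ofReal_mul (by positivity)).symm
      _ ≤ ENNReal.ofReal (ε / 2) := by
          refine ENNReal.ofReal_le_ofReal ?_
          have h1 : 1 - r ^ 2 ≤ 2 * t := by rw [hr]; nlinarith
          calc κ * B * ((1 - r ^ 2) * M) = (1 - r ^ 2) * (κ * B * M) := by ring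
            _ ≤ 2 * t * (κ * B * M) := mul_le_mul_of_nonneg_right h1 hKBM.le
            _ ≤ ε / 2 := by linarith
  calc _ ≤ ENNReal.ofReal (ε / 2) + ENNReal.ofReal (ε / 2) := add_le_add hI hO
    _ = ENNReal.ofReal ε := by
      rw [← ENNReal.ofReal_add (by positivity) (by positivity)]
      congr 1
      ring

end Vale.Agent.P270.R2.H824
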